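import Vale.Agent.P109.Bdl.B1

open MeasureTheory Set
open scoped symmDiff

namespace Vale.Agent.Results.P109.RationalSpectrum

/-- Every ergodic invertible measure preserving transformation with rational discrete spectrum
(every odometer) has a smooth positive-volume model on a closed surface. -/
theorem result {X : Type*} [MeasurableSpace X] [StandardBorelSpace X]
    (μ : Measure X) [IsProbabilityMeasure μ] (hna : ∀ x, μ {x} = 0)
    (T : X ≃ᵐ X) (hE : Ergodic T μ)
    (hper : ∀ A : Set X, MeasurableSet A → ∀ ε : ENNReal, 0 < ε →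
      ∃ n : ℕ, 0 < n ∧ ∃ B : Set X, MeasurableSet B ∧ T^[n] ⁻¹' B =ᵐ[μ] B ∧ μ (A ∆ B) < ε) :
    Vale.Agent.P109.HasModel (EuclideanSpace ℝ (Fin 2)) μ T :=
  (Vale.Agent.P109.rational_hasSmoothModel μ hna T hE hper).hasModel

end Vale.Agent.Results.P109.RationalSpectrum
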